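import Vale.Agent.Lib.P031.Reduction

namespace Vale.Agent.Results.P031.ErdosHallTwoDensities

open Filter Topology
open Vale.Agent.Lib.P031

/-- The Erdős-Hall statement, for all `c > 1`, is equivalent to two density statements:
asymptotically `1 / 2` of the totients are twice a totient and `1 / 6` of the totients
are six times a totient. -/
theorem result :
    (∀ c : ℝ, 1 < c → Tendsto (fun x : ℝ => (V (c * x) : ℝ) / V x) atTop (𝓝 c)) ↔
      (Tendsto (fun x : ℝ => ((Set.ncard {v : ℕ | IsTotient v ∧ (v : ℝ) ≤ x ∧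
          ∃ w, IsTotient w ∧ v = 2 * w} : ℕ) : ℝ) / V x) atTop (𝓝 (1 / 2)) ∧
       Tendsto (fun x : ℝ => ((Set.ncard {v : ℕ | IsTotient v ∧ (v : ℝ) ≤ x ∧
          ∃ w, IsTotient w ∧ v = 6 * w} : ℕ) : ℝ) / V x) atTop (𝓝 (1 / 6))) :=
  erdos_hall_iff

end Vale.Agent.Results.P031.ErdosHallTwoDensities
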