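import Vale.Agent.Results.P031.DoublingStructure
import Vale.Agent.Results.P031.ErdosHallTwoDensities

open Filter Topology
open Vale.Agent.Lib.P031

/-- The reduction of the Erdős-Hall question to two densities, with the rigidity of the totient
values under doubling and the limit in geometric mean. -/
theorem Vale.Agent.Results.P031.A0Conj.result :
    ((∀ c : ℝ, 1 < c → Tendsto (fun x : ℝ => (V (c * x) : ℝ) / V x) atTop (𝓝 c)) ↔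
      (Tendsto (fun x : ℝ => ((Set.ncard {v : ℕ | IsTotient v ∧ (v : ℝ) ≤ x ∧
          ∃ w, IsTotient w ∧ v = 2 * w} : ℕ) : ℝ) / V x) atTop (𝓝 (1 / 2)) ∧
       Tendsto (fun x : ℝ => ((Set.ncard {v : ℕ | IsTotient v ∧ (v : ℝ) ≤ x ∧
          ∃ w, IsTotient w ∧ v = 6 * w} : ℕ) : ℝ) / V x) atTop (𝓝 (1 / 6)))) ∧
    (∀ v : ℕ, IsTotient v → ∀ b : ℕ, IsTotient (2 * 3 ^ b * v)) ∧
    (∀ (b : ℕ) (s t : ℝ), s ≤ t →
      (V t : ℝ) - V s ≤ V (2 * 3 ^ b * t) - V (2 * 3 ^ b * s)) ∧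
    (∀ x : ℝ, 0 ≤ x → (V x : ℝ) - V (x / 2) ≤ V (2 * x) - V x) ∧
    (∀ x : ℝ, ((Set.ncard {v : ℕ | IsTotient v ∧ (v : ℝ) ≤ 2 * x ∧
        ¬ ∃ w, IsTotient w ∧ v = 2 * w} : ℕ) : ℝ) = (V (2 * x) : ℝ) - V x) ∧
    (Tendsto (fun x : ℝ => (V (2 * x) : ℝ) / V x) atTop (𝓝 2) ↔
      Tendsto (fun x : ℝ => ((Set.ncard {v : ℕ | IsTotient v ∧ (v : ℝ) ≤ x ∧
        ∃ w, IsTotient w ∧ v = 2 * w} : ℕ) : ℝ) / V x) atTop (𝓝 (1 / 2))) ∧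
    (∀ c x : ℝ, 1 < c → 1 ≤ x →
      Tendsto (fun K : ℕ => ((V (c ^ K * x) : ℝ) / V x) ^ ((1 : ℝ) / K)) atTop (𝓝 c)) ∧
    (∀ c ε : ℝ, 1 < c → 0 < ε →
      (∃ᶠ x : ℝ in atTop, c - ε < (V (c * x) : ℝ) / V x) ∧
      (∃ᶠ x : ℝ in atTop, (V (c * x) : ℝ) / V x < c + ε)) :=
  ⟨Vale.Agent.Results.P031.ErdosHallTwoDensities.result,
    Vale.Agent.Results.P031.DoublingStructure.result⟩
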