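import Vale.Agent.Lib.P031.Growth

namespace Vale.Agent.Results.P031.DoublingStructure

open Filter Topology
open Vale.Agent.Lib.P031

/-- Elementary rigidity of the totient values `V` under doubling and its relation with the
Erdős-Hall question, together with the Erdős-Hall limit in geometric mean. -/
theorem result :
    -- closure of the value set under multiplication by `2 * 3 ^ b`
    (∀ v : ℕ, IsTotient v → ∀ b : ℕ, IsTotient (2 * 3 ^ b * v)) ∧
    -- the count in an interval does not decrease when the interval is multiplied by `2 * 3 ^ b`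
    (∀ (b : ℕ) (s t : ℝ), s ≤ t →
      (V t : ℝ) - V s ≤ V (2 * 3 ^ b * t) - V (2 * 3 ^ b * s)) ∧
    -- in particular `V` is convex along dyadic progressions
    (∀ x : ℝ, 0 ≤ x → (V x : ℝ) - V (x / 2) ≤ V (2 * x) - V x) ∧
    -- the number of totients in `(x, 2 x]` is the number of totients up to `2 x`
    -- which are not twice a totient
    (∀ x : ℝ, ((Set.ncard {v : ℕ | IsTotient v ∧ (v : ℝ) ≤ 2 * x ∧
        ¬ ∃ w, IsTotient w ∧ v = 2 * w} : ℕ) : ℝ) = (V (2 * x) : ℝ) - V x) ∧
    -- the case `c = 2` of Erdős-Hall says exactly: half of the totients are twice a totient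
    (Tendsto (fun x : ℝ => (V (2 * x) : ℝ) / V x) atTop (𝓝 2) ↔
      Tendsto (fun x : ℝ => ((Set.ncard {v : ℕ | IsTotient v ∧ (v : ℝ) ≤ x ∧
        ∃ w, IsTotient w ∧ v = 2 * w} : ℕ) : ℝ) / V x) atTop (𝓝 (1 / 2))) ∧
    -- the geometric mean of `V (c ^ (k + 1) x) / V (c ^ k x)`, `k < K`, tends to `c`
    (∀ c x : ℝ, 1 < c → 1 ≤ x →
      Tendsto (fun K : ℕ => ((V (c ^ K * x) : ℝ) / V x) ^ ((1 : ℝ) / K)) atTop (𝓝 c)) ∧
    -- hence `liminf V (c x) / V x ≤ c ≤ limsup V (c x) / V x`
    (∀ c ε : ℝ, 1 < c → 0 < ε →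
      (∃ᶠ x : ℝ in atTop, c - ε < (V (c * x) : ℝ) / V x) ∧
      (∃ᶠ x : ℝ in atTop, (V (c * x) : ℝ) / V x < c + ε)) := by
  refine ⟨fun v hv b => hv.two_mul_three_pow_mul b, ?_, ?_, ?_, ?_, ?_, ?_⟩
  · intro b s t hst
    have hclosed : ∀ v, IsTotient v → IsTotient ((2 * 3 ^ b : ℕ) * v) :=
      fun v hv => hv.two_mul_three_pow_mul b
    have h := V_sub_le_of_mul (m := 2 * 3 ^ b) (Nat.succ_le_of_lt (by positivity)) hclosed hst
    push_cast at h
    exact h
  · intro x hx
    have hclosed : ∀ v, IsTotient v → IsTotient ((2 : ℕ) * v) := fun v hv => hv.two_mul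
    have h := V_sub_le_of_mul (m := 2) (by norm_num) hclosed (a := x / 2) (b := x) (by linarith)
    push_cast at h
    have e : 2 * (x / 2) = x := by ring
    rw [e] at h
    exact h
  · intro x
    have h := ncard_non_doubles x
    have e : {v : ℕ | IsTotient v ∧ (v : ℝ) ≤ 2 * x ∧ ¬ ∃ w, IsTotient w ∧ v = 2 * w} =
        S (2 * x) \ D (2 * x) := by
      ext v
      constructor
      · rintro ⟨h1, h2, h3⟩
        exact ⟨⟨h1, h2⟩, fun hd => h3 hd.2.2⟩
      · rintro ⟨⟨h1, h2⟩, h3⟩
        exact ⟨h1, h2, fun hw => h3 ⟨h1, h2, hw⟩⟩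
    rw [e]
    exact h
  · exact tendsto_two_iff
  · intro c x hc hx
    have hV : (0 : ℝ) < V x := by exact_mod_cast V_pos hx
    have h1 := tendsto_geom_mean hc hx
    have h2 := tendsto_rpow_one_div_nat hV
    have h3 := h1.div h2 (by norm_num)
    rw [div_one] at h3
    refine h3.congr (fun K => ?_)
    simp only [Pi.div_apply]
    rw [Real.div_rpow (Nat.cast_nonneg _) hV.le]
  · intro c ε hc hε
    exact ⟨frequently_lower hc hε, frequently_upper hc hε⟩

end Vale.Agent.Results.P031.DoublingStructure
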